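import Vale.Agent.P133O32.Obj
import Vale.Agent.P133OD.Dom

/-!
Two sequences of isometries with orthogonal ranges are approximately unitarily equivalent.
-/

noncomputable section

namespace Vale.Agent.P133O32

variable {B : Type*} [CStarAlgebra B] {n : ℕ}

/-- The domination lemma in `B`. -/
def DOM (B : Type*) [CStarAlgebra B] : Prop :=
  ∀ (n : ℕ) (X Y : Obj B n), CT X → CT Y → ∀ r : B, star r * r = Y.e → X.e * r = r →
    (∀ i, star (X.s i) * r = 0) → ∀ ε > 0, ∃ d : B, star d * d = Y.e ∧ X.e * d = d ∧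
      ∀ i, ‖X.s i * d - d * Y.s i‖ ≤ ε ∧ ‖star (X.s i) * d - d * star (Y.s i)‖ ≤ ε

/-- Every object with the relations is approximately a summand of `X`. -/
def Big (P : Two B) (X : Obj B n) : Prop :=
  ∀ ε > 0, ∀ Y, CT Y → ∃ R, Eqv ε X (P.sum Y R)

theorem split (P : Two B) {X Y : Obj B n} {ε : ℝ} {d : B} (h1 : star d * d = Y.e)
    (h2 : X.e * d = d) (h3 : ∀ i, ‖X.s i * d - d * Y.s i‖ ≤ ε ∧
      ‖star (X.s i) * d - d * star (Y.s i)‖ ≤ ε) : ∃ R, Eqv (ε + ε) X (P.sum Y R) := by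
  obtain ⟨hdf, hd⟩ := piso Y.he Y.ee h1
  have h2' : star d * X.e = star d := by simpa [X.he] using congrArg star h2
  set g := X.e - d * star d with hg
  have hgs : star g = g := by simp [hg, X.he]
  have hgd : g * d = 0 := by rw [hg, sub_mul, h2, mul_assoc, h1, hdf, sub_self]
  have hdg : star d * g = 0 := by simpa [hgs] using congrArg star hgd
  have heg : X.e * g = g := by rw [hg, mul_sub, X.ee, ← mul_assoc, h2]
  have hgg : g * g = g := by
    nth_rewrite 1 [hg]; rw [sub_mul, heg, mul_assoc, hdg, mul_zero, sub_zero]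
  have hfd : Y.e * star d = star d := by simpa [Y.he] using congrArg star hdf
  refine ⟨⟨g, fun i => g * X.s i * g, hgs, hgg, fun i => by rw [← mul_assoc, ← mul_assoc, hgg],
    fun i => by rw [mul_assoc, hgg]⟩, P.a * star d + P.b * g, ?_, ?_, fun i => ?_⟩
  · simp only [star_add, star_mul, star_star, hgs, mul_add, add_mul, mul_assoc, P.aa', P.bb',
      P.ab', P.ba', mul_zero, add_zero, zero_add, hgg]
    rw [hg]; abel
  · have e1 : ∀ x, star d * (d * x) = Y.e * x := fun x => by rw [← mul_assoc, h1]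
    have e2 : ∀ x, star d * (g * x) = 0 := fun x => by rw [← mul_assoc, hdg, zero_mul]
    have e3 : ∀ x, g * (d * x) = 0 := fun x => by rw [← mul_assoc, hgd, zero_mul]
    have e4 : ∀ x, g * (g * x) = g * x := fun x => by rw [← mul_assoc, hgg]
    simp only [Two.sum, Two.ds_apply, star_add, star_mul, star_star, hgs, mul_add, add_mul,
      mul_assoc, e1, e2, e3, e4, mul_zero, add_zero, zero_add]
  · have e5 : g * X.s i * g = g * X.s i - g * (X.s i * d - d * Y.s i) * star d := by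
      rw [mul_sub g, ← mul_assoc g d, hgd, zero_mul, sub_zero]
      nth_rewrite 2 [hg]
      rw [mul_sub, mul_assoc g _ X.e, X.se]; simp only [mul_assoc]
    have : (P.a * star d + P.b * g) * X.s i - P.ds (Y.s i, g * X.s i * g) *
        (P.a * star d + P.b * g) = P.a * star (star (X.s i) * d - d * star (Y.s i)) +
          P.b * (g * (X.s i * d - d * Y.s i) * star d) := by
      have e6 : g * X.s i * g * g = g * X.s i * g := by rw [mul_assoc, hgg]
      have e7 : P.ds (Y.s i, g * X.s i * g) * (P.a * star d + P.b * g) =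
          P.a * (Y.s i * star d) + P.b * (g * X.s i * g * g) := by
        simp only [Two.ds_apply, mul_add, add_mul, mul_assoc, P.aa', P.bb', P.ab', P.ba', mul_zero,
          add_zero, zero_add]
      rw [e7, e6, e5, star_sub, star_mul, star_mul, star_star, star_star]
      noncomm_ring
    change ‖_ - P.ds (Y.s i, g * X.s i * g) * _‖ ≤ _
    rw [this]
    refine (norm_add_le _ _).trans (add_le_add (norm_mulL P.na ?_) (norm_mulL P.nb ?_))
    · rw [norm_star]; exact (h3 i).2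
    · exact norm_mul3 (norm_proj hgs hgg) (by rwa [norm_star]) (h3 i).1

theorem cancel (P : Two B) {X Y T : Obj B n} {ε : ℝ} (hε : 0 < ε) (bX : Big P X) (bY : Big P Y)
    (hX : CT X) (hT : CT T) (h : Eqv ε (P.sum X T) (P.sum Y T)) : Eqv (5 * ε) X Y := by
  obtain ⟨R, hR⟩ := bX ε hε _ (P.ct_sum hX hT)
  obtain ⟨S, hS⟩ := bY ε hε _ hX
  have r0 : ∀ Z : Obj B n, Eqv 0 Z Z := Eqv.rfl' le_rfl
  have r1 : ∀ Z : Obj B n, Eqv ε Z Z := Eqv.rfl' hε.le
  have h1 : Eqv 0 (P.sum (P.sum X S) T) (P.sum (P.sum X T) S) :=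
    (((P.assoc X S T).trans (P.congr (r0 X) (P.comm S T))).trans (P.assoc X T S).symm).mono
      (by norm_num)
  have h2 : Eqv 0 (P.sum (P.sum (P.sum X T) S) R) (P.sum (P.sum (P.sum X T) R) S) :=
    (((P.assoc _ S R).trans (P.congr (r0 _) (P.comm S R))).trans (P.assoc _ R S).symm).mono
      (by norm_num)
  exact ((((((hR.trans (P.congr h (r1 R))).trans (P.congr (P.congr hS (r1 T)) (r1 R))).trans
    (P.congr h1 (r0 R))).trans h2).trans (P.congr hR.symm (r1 S))).trans hS.symm).mono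
    (by linarith)

/-- The zero object. -/
def zero : Obj B n := ⟨0, fun _ => 0, by simp, by simp, by simp, by simp⟩

theorem tele (P : Two B) {ε : ℝ} (hε : 0 ≤ ε) (Z : ℕ → Obj B n) (hZ : ∀ j, CT (Z j))
    (h : ∀ j, Eqv ε (Z j) (Z (j + 1))) (N : ℕ) :
    ∃ T, CT T ∧ Eqv ε (P.sum (Z 0) T) (P.sum (Z N) T) := by
  have key : ∃ A T, CT T ∧ Eqv ε A T ∧ Eqv 0 (P.sum (Z 0) T) (P.sum A (Z N)) := by
    induction N with
    | zero => exact ⟨zero, zero, fun i j => by simp [zero], Eqv.rfl' hε _, P.comm _ _⟩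
    | succ N ih =>
      obtain ⟨A, T, h1, h2, h3⟩ := ih
      exact ⟨P.sum A (Z N), P.sum T (Z (N + 1)), P.ct_sum h1 (hZ _), P.congr h2 (h N),
        ((P.assoc _ _ _).symm.trans (P.congr h3 (Eqv.rfl' le_rfl _))).mono (by norm_num)⟩
  obtain ⟨A, T, h1, h2, h3⟩ := key
  exact ⟨T, h1, ((h3.trans (P.congr h2 (Eqv.rfl' hε _))).trans (P.comm _ _)).mono (by norm_num)⟩

/-- A sequence of isometries with orthogonal ranges. -/
def Iso (s : ℕ → B) : Prop := ∀ i j, star (s i) * s j = if i = j then 1 else 0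

theorem Iso.norm {s : ℕ → B} (hs : Iso s) (i : ℕ) : ‖s i‖ ≤ 1 :=
  (piso (star_one B) (mul_one 1) (by rw [hs i i, if_pos rfl])).2

/-- The object given by the first `n` isometries. -/
def ob (n : ℕ) (s : ℕ → B) : Obj B n := ⟨1, fun i => s i, by simp, by simp, by simp, by simp⟩

theorem ct_ob {s : ℕ → B} (hs : Iso s) : CT (ob n s) := fun i j => by
  simp only [ob, hs i j, Fin.val_inj]

theorem big_ob (hD : DOM B) (P : Two B) {s : ℕ → B} (hs : Iso s) : Big P (ob n s) := by
  intro ε hε Y hY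
  obtain ⟨d, h1, h2, h3⟩ := hD n (ob n s) Y (ct_ob hs) hY (s n * Y.e)
    (by rw [star_mul, mul_assoc, ← mul_assoc (star (s n)), hs n n, if_pos rfl, one_mul, Y.he, Y.ee])
    (one_mul _) (fun i => by
      change star (s i) * _ = 0
      rw [← mul_assoc, hs i n, if_neg i.2.ne, zero_mul]) (ε / 2) (half_pos hε)
  simpa using split P h1 h2 h3

/-- The path from `s ⊕ s` to `t ⊕ s`. -/
def pth (P : Two B) (n : ℕ) (s t : ℕ → B) (α β γ : ℝ) : Obj B n where
  e := P.ds (1, 1)
  s i := α • (P.a * s i * star P.a) + β • (P.a * t i * star P.a) +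
    γ • (P.b * s (n + i) * star P.a) + P.b * s i * star P.b
  he := by simp [Two.ds_apply]
  ee := by rw [← map_mul, Prod.mk_mul_mk, mul_one]
  es i := by
    simp only [Two.ds_apply, mul_add, add_mul, mul_assoc, P.aa', P.bb', P.ab', P.ba', mul_zero,
      add_zero, zero_add, mul_smul_comm, one_mul]
  se i := by
    simp only [Two.ds_apply, mul_add, add_mul, mul_assoc, P.aa', P.bb', P.ab', P.ba', mul_zero,
      add_zero, zero_add, smul_mul_assoc, one_mul, smul_zero]

theorem ct_pth (P : Two B) {s t : ℕ → B} (hs : Iso s) (ht : Iso t) {α β γ : ℝ} (h1 : α * β = 0)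
    (h2 : α * α + β * β + γ * γ = 1) : CT (pth P n s t α β γ) := by
  intro i j
  have e1 : ∀ k l x, star (s k) * (s l * x) = if k = l then x else 0 := fun k l x => by
    rw [← mul_assoc, hs k l]; split_ifs <;> simp
  have e2 : ∀ k l x, star (t k) * (t l * x) = if k = l then x else 0 := fun k l x => by
    rw [← mul_assoc, ht k l]; split_ifs <;> simp
  have n1 : ¬ (n + i = j) := by have := j.2; omega
  have n2 : ¬ ((i : ℕ) = n + j) := by have := i.2; omega
  simp only [pth, Two.ds_apply, star_add, star_smul, star_mul, star_star, mul_add, add_mul,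
    mul_assoc, P.aa', P.bb', P.ab', P.ba', mul_zero, add_zero, zero_add, mul_smul_comm,
    smul_mul_assoc, one_mul, smul_zero, smul_add, e1, e2, star_trivial, smul_smul, h1,
    mul_comm β α, zero_smul, n1, n2, if_false, add_right_inj, Fin.val_inj]
  split_ifs
  · rw [← add_smul, ← add_smul, h2, one_smul]
  · simp

theorem pth_close (P : Two B) {s t : ℕ → B} (hs : Iso s) (ht : Iso t) (α β γ α' β' γ' : ℝ) :
    Eqv (|α - α'| + |β - β'| + |γ - γ'|) (pth P n s t α β γ) (pth P n s t α' β' γ') := by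
  refine eqv_close rfl fun i => ?_
  have : (pth P n s t α β γ).s i - (pth P n s t α' β' γ').s i =
      (α - α') • (P.a * s i * star P.a) + (β - β') • (P.a * t i * star P.a) +
        (γ - γ') • (P.b * s (n + i) * star P.a) := by
    simp only [pth, sub_smul]; abel
  have hb : ∀ (c : ℝ) (x : B), ‖x‖ ≤ 1 → ‖c • x‖ ≤ |c| := fun c x hx => by
    rw [norm_smul, Real.norm_eq_abs]; exact mul_le_of_le_one_right (abs_nonneg c) hx
  have na : ‖star P.a‖ ≤ 1 := by rw [norm_star]; exact P.na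
  rw [this]
  exact norm_add₃_le.trans (add_le_add (add_le_add (hb _ _ (norm_mul3 P.na na (hs.norm _)))
    (hb _ _ (norm_mul3 P.na na (ht.norm _)))) (hb _ _ (norm_mul3 P.nb na (hs.norm _))))

theorem aue_of (hD : DOM B) (s t : ℕ → B) (hs : Iso s) (ht : Iso t) (n : ℕ) {ε : ℝ} (hε : 0 < ε) :
    ∃ u ∈ unitary B, ∀ i < n, ‖u * s i * star u - t i‖ ≤ ε := by
  let P : Two B := ⟨s 0, s 1, by simpa using hs 0 0, by simpa using hs 1 1, by simpa using hs 0 1⟩
  obtain ⟨N, hN⟩ := exists_nat_gt (15 * Real.pi / ε)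
  have hN0 : (0 : ℝ) < N := lt_trans (by positivity) hN
  set δ := Real.pi / N with hδ
  have hδ0 : 0 < δ := by positivity
  let Z : ℕ → Obj B n := fun j =>
    pth P n s t (max (Real.cos (j * δ)) 0) (max (-Real.cos (j * δ)) 0) (Real.sin (j * δ))
  have hZ : ∀ j, CT (Z j) := fun j => by
    have := Real.cos_sq_add_sin_sq (j * δ)
    rcases le_total 0 (Real.cos (j * δ)) with h | h
    · refine ct_pth P hs ht ?_ ?_ <;> rw [max_eq_left h, max_eq_right (neg_nonpos.2 h)] <;> nlinarith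
    · refine ct_pth P hs ht ?_ ?_ <;> rw [max_eq_right h, max_eq_left (neg_nonneg.2 h)] <;> nlinarith
  have hc : ∀ j, Eqv (3 * δ) (Z j) (Z (j + 1)) := fun j => by
    refine (pth_close P hs ht _ _ _ _ _ _).mono ?_
    have h0 : |(j : ℝ) * δ - ((j + 1 : ℕ) : ℝ) * δ| = δ := by
      push_cast; rw [show (j : ℝ) * δ - (j + 1) * δ = -δ by ring, abs_neg, abs_of_pos hδ0]
    have h1 := Real.abs_cos_sub_cos_le (j * δ) ((j + 1 : ℕ) * δ)
    have h2 := Real.abs_sin_sub_sin_le (j * δ) ((j + 1 : ℕ) * δ)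
    have h3 := abs_max_sub_max_le_abs (Real.cos (j * δ)) (Real.cos ((j + 1 : ℕ) * δ)) 0
    have h4 := abs_max_sub_max_le_abs (-Real.cos (j * δ)) (-Real.cos ((j + 1 : ℕ) * δ)) 0
    rw [neg_sub_neg, abs_sub_comm (Real.cos _)] at h4
    linarith
  obtain ⟨T, hT, h⟩ := tele P (by positivity) Z hZ hc N
  have hNδ : (N : ℝ) * δ = Real.pi := by rw [hδ]; field_simp
  have z0 : Eqv 0 (P.sum (ob n s) (ob n s)) (Z 0) :=
    eqv_close rfl fun i => by simp [Z, pth, Two.sum, Two.ds_apply, ob]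
  have z1 : Eqv 0 (Z N) (P.sum (ob n t) (ob n s)) :=
    eqv_close rfl fun i => by simp [Z, pth, Two.sum, Two.ds_apply, ob, hNδ]
  have r0 : ∀ Z : Obj B n, Eqv 0 Z Z := Eqv.rfl' le_rfl
  have h' : Eqv (3 * δ) (P.sum (ob n s) (P.sum (ob n s) T)) (P.sum (ob n t) (P.sum (ob n s) T)) :=
    (((((P.assoc _ _ _).symm.trans (P.congr z0 (r0 T))).trans h).trans
      (P.congr z1 (r0 T))).trans (P.assoc _ _ _)).mono (by norm_num)
  obtain ⟨v, h1, h2, h3⟩ := cancel P (by positivity) (big_ob hD P hs) (big_ob hD P ht) (ct_ob hs)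
    (P.ct_sum (ct_ob hs) hT) h'
  have h2' : v * star v = 1 := h2
  refine ⟨v, ⟨h1, h2⟩, fun i hi => ?_⟩
  have : v * s i * star v - t i = (v * s i - t i * v) * star v := by
    rw [sub_mul, mul_assoc (t i), h2', mul_one]
  rw [this]
  refine norm_mulR (by rw [norm_star]; exact (piso (star_one B) (mul_one 1) h1).2)
    ((h3 ⟨i, hi⟩).trans ?_)
  rw [div_lt_iff₀ hε] at hN
  rw [hδ, show 5 * (3 * (Real.pi / N)) = 15 * Real.pi / N by ring, div_le_iff₀ hN0]
  linarith

theorem dom (B : Type*) [CStarAlgebra B] : DOM B := by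
  intro n X Y hX hY r h1 h2 h3 ε hε
  obtain ⟨d, k1, k2, -, k4⟩ := P133OD.exists_dom (e := X.e) (s := X.s) (f := Y.e) (t := Y.s)
    ⟨⟨X.ee, X.he⟩, hX, X.es⟩ ⟨⟨Y.ee, Y.he⟩, hY, Y.es⟩ (fun _ : Unit => r)
    (fun _ _ => by simpa using h1) (fun _ => h2) (fun _ => h3) hε
  exact ⟨d (), by simpa using k1 () (), k2 (), k4 ()⟩

/-- Approximate unitary equivalence of sequences of isometries with orthogonal ranges. -/
theorem aue (s t : ℕ → B) (hs : ∀ i j, star (s i) * s j = if i = j then 1 else 0)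
    (ht : ∀ i j, star (t i) * t j = if i = j then 1 else 0) (n : ℕ) {ε : ℝ} (hε : 0 < ε) :
    ∃ u ∈ unitary B, ∀ i < n, ‖u * s i * star u - t i‖ ≤ ε :=
  aue_of (dom B) s t hs ht n hε

end Vale.Agent.P133O32
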