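import Mathlib

/-!
Objects (a projection with a tuple in its corner), approximate unitary equivalence, direct sums.
-/

noncomputable section

namespace Vale.Agent.P133O32

variable {B : Type*} [CStarAlgebra B] {n : ℕ}

/-- A projection with a tuple of elements of its corner. -/
structure Obj (B : Type*) [CStarAlgebra B] (n : ℕ) where
  e : B
  s : Fin n → B
  he : star e = e
  ee : e * e = e
  es : ∀ i, e * s i = s i
  se : ∀ i, s i * e = s i

/-- The tuple consists of isometries of the corner with orthogonal ranges. -/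
def CT (X : Obj B n) : Prop := ∀ i j, star (X.s i) * X.s j = if i = j then X.e else 0

/-- Unitary equivalence up to `ε`. -/
def Eqv (ε : ℝ) (X Y : Obj B n) : Prop :=
  ∃ v : B, star v * v = X.e ∧ v * star v = Y.e ∧ ∀ i, ‖v * X.s i - Y.s i * v‖ ≤ ε

theorem norm_proj {e : B} (he : star e = e) (ee : e * e = e) : ‖e‖ ≤ 1 := by
  have h : ‖e‖ * ‖e‖ = ‖e‖ := by rw [← CStarRing.norm_star_mul_self, he, ee]
  by_contra hc
  push Not at hc
  nlinarith

theorem piso {v e : B} (he : star e = e) (ee : e * e = e) (h : star v * v = e) :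
    v * e = v ∧ ‖v‖ ≤ 1 := by
  constructor
  · have : star (v * e - v) * (v * e - v) = 0 := by
      simp only [star_sub, star_mul, he, sub_mul, mul_sub, mul_assoc]
      simp only [← mul_assoc (star v) v, h, ee, sub_self]
    exact sub_eq_zero.1 ((CStarRing.star_mul_self_eq_zero_iff _).1 this)
  · have h1 : ‖v‖ * ‖v‖ ≤ 1 := by
      rw [← CStarRing.norm_star_mul_self, h]; exact norm_proj he ee
    nlinarith [norm_nonneg v]

theorem norm_mul3 {a x b : B} {ε : ℝ} (ha : ‖a‖ ≤ 1) (hb : ‖b‖ ≤ 1) (hx : ‖x‖ ≤ ε) :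
    ‖a * x * b‖ ≤ ε := by
  have h0 := norm_nonneg x
  calc ‖a * x * b‖ ≤ ‖a‖ * ‖x‖ * ‖b‖ :=
        (norm_mul_le _ _).trans (mul_le_mul_of_nonneg_right (norm_mul_le _ _) (norm_nonneg _))
    _ ≤ 1 * ‖x‖ * 1 := by gcongr
    _ ≤ ε := by simpa using hx

theorem norm_mulL {a x : B} {ε : ℝ} (ha : ‖a‖ ≤ 1) (hx : ‖x‖ ≤ ε) : ‖a * x‖ ≤ ε := by
  have h0 := norm_nonneg x
  calc ‖a * x‖ ≤ ‖a‖ * ‖x‖ := norm_mul_le _ _
    _ ≤ 1 * ‖x‖ := by gcongr
    _ ≤ ε := by simpa using hx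

theorem norm_mulR {x b : B} {ε : ℝ} (hb : ‖b‖ ≤ 1) (hx : ‖x‖ ≤ ε) : ‖x * b‖ ≤ ε := by
  have h0 := norm_nonneg x
  calc ‖x * b‖ ≤ ‖x‖ * ‖b‖ := norm_mul_le _ _
    _ ≤ ‖x‖ * 1 := by gcongr
    _ ≤ ε := by simpa using hx

theorem Eqv.mono {ε δ : ℝ} {X Y : Obj B n} (h : Eqv ε X Y) (hle : ε ≤ δ) : Eqv δ X Y := by
  obtain ⟨v, h1, h2, h3⟩ := h
  exact ⟨v, h1, h2, fun i => (h3 i).trans hle⟩

theorem eqv_close {ε : ℝ} {X Y : Obj B n} (he : X.e = Y.e) (hs : ∀ i, ‖X.s i - Y.s i‖ ≤ ε) :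
    Eqv ε X Y := by
  refine ⟨X.e, by rw [X.he, X.ee], by rw [X.he, X.ee, he], fun i => ?_⟩
  rw [X.es, he, Y.se]; exact hs i

theorem Eqv.rfl' {ε : ℝ} (hε : 0 ≤ ε) (X : Obj B n) : Eqv ε X X :=
  eqv_close rfl fun i => by simpa using hε

theorem Eqv.symm {ε : ℝ} {X Y : Obj B n} (h : Eqv ε X Y) : Eqv ε Y X := by
  obtain ⟨v, h1, h2, h3⟩ := h
  have hv := (piso X.he X.ee h1).2
  refine ⟨star v, by rw [star_star, h2], by rw [star_star, h1], fun i => ?_⟩
  have : star v * Y.s i - X.s i * star v = -(star v * (v * X.s i - Y.s i * v) * star v) := by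
    rw [mul_sub, sub_mul, ← mul_assoc, h1, X.es, mul_assoc, mul_assoc, h2, Y.se, neg_sub]
  rw [this, norm_neg]
  exact norm_mul3 (by rwa [norm_star]) (by rwa [norm_star]) (h3 i)

theorem Eqv.trans {ε δ : ℝ} {X Y Z : Obj B n} (h : Eqv ε X Y) (h' : Eqv δ Y Z) :
    Eqv (ε + δ) X Z := by
  obtain ⟨v, h1, h2, h3⟩ := h
  obtain ⟨w, k1, k2, k3⟩ := h'
  obtain ⟨hve, hv⟩ := piso X.he X.ee h1
  obtain ⟨hwe, hw⟩ := piso Y.he Y.ee k1
  have hfv : Y.e * v = v := by rw [← h2, mul_assoc, h1, hve]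
  refine ⟨w * v, ?_, ?_, fun i => ?_⟩
  · rw [star_mul, mul_assoc, ← mul_assoc (star w), k1, hfv, h1]
  · rw [star_mul, mul_assoc, ← mul_assoc v, h2, ← mul_assoc, hwe, k2]
  · have : w * v * X.s i - Z.s i * (w * v) =
        w * (v * X.s i - Y.s i * v) + (w * Y.s i - Z.s i * w) * v := by noncomm_ring
    rw [this]
    exact (norm_add_le _ _).trans (add_le_add (norm_mulL hw (h3 i)) (norm_mulR hv (k3 i)))

/-- Two isometries with orthogonal ranges. -/
structure Two (B : Type*) [CStarAlgebra B] where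
  a : B
  b : B
  aa : star a * a = 1
  bb : star b * b = 1
  ab : star a * b = 0

namespace Two

variable (P : Two B)

theorem ba : star P.b * P.a = 0 := by simpa using congrArg star P.ab
theorem aa' (x : B) : star P.a * (P.a * x) = x := by rw [← mul_assoc, P.aa, one_mul]
theorem bb' (x : B) : star P.b * (P.b * x) = x := by rw [← mul_assoc, P.bb, one_mul]
theorem ab' (x : B) : star P.a * (P.b * x) = 0 := by rw [← mul_assoc, P.ab, zero_mul]
theorem ba' (x : B) : star P.b * (P.a * x) = 0 := by rw [← mul_assoc, P.ba, zero_mul]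
theorem na : ‖P.a‖ ≤ 1 := (piso (star_one B) (mul_one 1) P.aa).2
theorem nb : ‖P.b‖ ≤ 1 := (piso (star_one B) (mul_one 1) P.bb).2

/-- The diagonal embedding. -/
def ds : B × B →⋆ₙₐ[ℂ] B where
  toFun x := P.a * x.1 * star P.a + P.b * x.2 * star P.b
  map_smul' c x := by simp [smul_add]
  map_zero' := by simp
  map_add' x y := by simp only [Prod.fst_add, Prod.snd_add, mul_add, add_mul]; abel
  map_mul' x y := by
    simp only [Prod.fst_mul, Prod.snd_mul, mul_add, add_mul, mul_assoc, P.aa', P.bb', P.ab', P.ba',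
      mul_zero, add_zero, zero_add]
  map_star' x := by simp [mul_assoc]

theorem ds_apply (x y : B) : P.ds (x, y) = P.a * x * star P.a + P.b * y * star P.b := rfl

/-- The direct sum of two objects. -/
def sum (X Y : Obj B n) : Obj B n where
  e := P.ds (X.e, Y.e)
  s i := P.ds (X.s i, Y.s i)
  he := by rw [← map_star, Prod.star_def]; simp only [X.he, Y.he]
  ee := by rw [← map_mul, Prod.mk_mul_mk, X.ee, Y.ee]
  es i := by rw [← map_mul, Prod.mk_mul_mk, X.es, Y.es]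
  se i := by rw [← map_mul, Prod.mk_mul_mk, X.se, Y.se]

theorem ct_sum {X Y : Obj B n} (hX : CT X) (hY : CT Y) : CT (P.sum X Y) := by
  intro i j
  change star (P.ds _) * P.ds _ = if i = j then P.ds _ else 0
  rw [← map_star, ← map_mul, Prod.star_def, Prod.mk_mul_mk, hX i j, hY i j]
  split_ifs
  · rfl
  · exact map_zero _

theorem congr {ε : ℝ} {X X' Y Y' : Obj B n} (h : Eqv ε X X') (h' : Eqv ε Y Y') :
    Eqv ε (P.sum X Y) (P.sum X' Y') := by
  obtain ⟨v, h1, h2, h3⟩ := h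
  obtain ⟨w, k1, k2, k3⟩ := h'
  refine ⟨P.ds (v, w), ?_, ?_, fun i => ?_⟩
  · rw [← map_star, ← map_mul, Prod.star_def, Prod.mk_mul_mk, h1, k1]; rfl
  · rw [← map_star, ← map_mul, Prod.star_def, Prod.mk_mul_mk, h2, k2]; rfl
  · change ‖P.ds _ * P.ds _ - P.ds _ * P.ds _‖ ≤ ε
    rw [← map_mul, ← map_mul, ← map_sub]
    refine (NonUnitalStarAlgHom.norm_apply_le _ _).trans ?_
    rw [Prod.mk_mul_mk, Prod.mk_mul_mk, Prod.mk_sub_mk, Prod.norm_mk]
    exact max_le (h3 i) (k3 i)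

end Two

theorem Obj.ee' (X : Obj B n) (x : B) : X.e * (X.e * x) = X.e * x := by rw [← mul_assoc, X.ee]
theorem Obj.es' (X : Obj B n) (i) (x : B) : X.e * (X.s i * x) = X.s i * x := by
  rw [← mul_assoc, X.es]
theorem Obj.se' (X : Obj B n) (i) (x : B) : X.s i * (X.e * x) = X.s i * x := by
  rw [← mul_assoc, X.se]

theorem Two.comm (P : Two B) (X Y : Obj B n) : Eqv 0 (P.sum X Y) (P.sum Y X) := by
  refine ⟨P.b * X.e * star P.a + P.a * Y.e * star P.b, ?_, ?_, fun i => ?_⟩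
  all_goals
    simp only [Two.sum, Two.ds_apply, star_add, star_mul, star_star, Obj.he, mul_add, add_mul,
      mul_assoc, P.aa', P.bb', P.ab', P.ba', mul_zero, add_zero, zero_add, Obj.ee', Obj.es',
      Obj.se']
  · exact add_comm _ _
  · rw [add_comm, sub_self, norm_zero]

theorem Two.assoc (P : Two B) (X Y Z : Obj B n) :
    Eqv 0 (P.sum (P.sum X Y) Z) (P.sum X (P.sum Y Z)) := by
  refine ⟨P.a * X.e * star P.a * star P.a + P.b * P.a * Y.e * star P.b * star P.a +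
    P.b * P.b * Z.e * star P.b, ?_, ?_, fun i => ?_⟩
  all_goals
    simp only [Two.sum, Two.ds_apply, star_add, star_mul, star_star, Obj.he, mul_add, add_mul,
      mul_assoc, P.aa', P.bb', P.ab', P.ba', mul_zero, add_zero, zero_add, Obj.ee', Obj.es',
      Obj.se', add_assoc]
  rw [sub_self, norm_zero]

end Vale.Agent.P133O32
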